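import Vale.Agent.P260Z.Ob.Reg.Closed
import Vale.Agent.P215Z.Cell.ShA

/-!
# P260, obstruction: the Stokes formula on the sheets
-/

noncomputable section
set_option linter.unusedSectionVars false
variable [Vale.Agent.P215Z.K.Geom]
namespace Vale.Agent.P215Z.K
open MvPolynomial Classical

namespace StB

open Gen Fm

variable {O : Type} [CommRing O] [Algebra ℚ O]

/-- the integral of all entries -/
def itgM (y : MM O) : M2 O := y.map itg

theorem itgM_cst_mul (n : M2 O) (y : MM O) : itgM (cst n * y) = n * itgM y := by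
  ext i j
  simp only [itgM, cst, Matrix.map_apply, Matrix.mul_apply, map_sum, ← smul_eq_C_mul, map_smul,
    smul_eq_mul]

theorem itgM_mul_cst (n : M2 O) (y : MM O) : itgM (y * cst n) = itgM y * n := by
  ext i j
  simp only [itgM, cst, Matrix.map_apply, Matrix.mul_apply, map_sum]
  refine Finset.sum_congr rfl fun k _ => ?_
  rw [mul_comm, ← smul_eq_C_mul, map_smul, smul_eq_mul, mul_comm]

theorem itgM_sub (x y : MM O) : itgM (x - y) = itgM x - itgM y := by
  ext i j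
  simp only [itgM, Matrix.map_apply, Matrix.sub_apply, map_sub]

theorem trace_itgM (y : MM O) : (itgM y).trace = itg y.trace := by
  simp only [itgM, Matrix.trace, Matrix.diag, Matrix.map_apply, map_sum]

theorem itgM_mem {b : Ideal O} {y : MM O} (h : InI b y) : InC b (itgM y) :=
  fun i j => itg_mem (h i j)

omit [Algebra ℚ O] in
theorem inC_lie_zero (M : Ideal O) (y : M2 O) : InC M ⁅y, (0 : M2 O)⁆ := by
  rw [Ring.lie_def, mul_zero, zero_mul, sub_self]
  exact InC.zero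

variable {E : Type} [Fintype E]

/-- the error terms -/
def TT (M : Ideal O) (n ν : E → M2 O) : Ideal O where
  carrier := {t | ∃ w : E → M2 O, (∀ c, InC M ⁅n c, w c⁆) ∧ t - ∑ c, (ν c * w c).trace ∈ M ^ 2}
  zero_mem' := ⟨0, fun _ => inC_lie_zero _ _, by simp⟩
  add_mem' := by
    rintro t t' ⟨w, h1, h2⟩ ⟨w', h1', h2'⟩
    refine ⟨w + w', fun c => ?_, ?_⟩
    · convert (h1 c).add (h1' c) using 1
      simp only [Pi.add_apply, Ring.lie_def]
      noncomm_ring
    · simp only [Pi.add_apply, mul_add, Matrix.trace_add, Finset.sum_add_distrib]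
      convert add_mem h2 h2' using 1
      ring
  smul_mem' := by
    rintro r t ⟨w, h1, h2⟩
    refine ⟨r • w, fun c => ?_, ?_⟩
    · convert (h1 c).smul r using 1
      simp only [Pi.smul_apply, Ring.lie_def, smul_sub, mul_smul_comm, smul_mul_assoc]
    · simp only [Pi.smul_apply, mul_smul_comm, Matrix.trace_smul, ← Finset.smul_sum, ← smul_sub]
      exact Ideal.mul_mem_left _ r h2

omit [Algebra ℚ O] in
theorem sq_le_TT (M : Ideal O) (n ν : E → M2 O) : M ^ 2 ≤ TT M n ν :=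
  fun t ht => ⟨0, fun _ => inC_lie_zero _ _, by simpa using ht⟩

omit [Algebra ℚ O] in
theorem trace_mem_TT {M : Ideal O} (n ν : E → M2 O) (c : E) {w : M2 O} (h : InC M ⁅n c, w⁆) :
    (ν c * w).trace ∈ TT M n ν := by
  refine ⟨Pi.single c w, fun c' => ?_, ?_⟩
  · by_cases hc : c' = c
    · subst hc; simpa using h
    · rw [Pi.single_eq_of_ne hc]; exact inC_lie_zero _ _
  · rw [Finset.sum_eq_single c (fun c' _ hc => by simp [Pi.single_eq_of_ne hc]) (by simp)]
    simp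

/-- the integral modulo an ideal -/
def ph (T : Ideal O) : RR O →ₗ[ℚ] O ⧸ T := (T.mkQ ∘ₗ itg).restrictScalars ℚ

theorem ph_apply (T : Ideal O) (f : RR O) : ph T f = Ideal.Quotient.mk T (itg f) := rfl

theorem ph_sq {M T : Ideal O} (h : M ^ 2 ≤ T) :
    ∀ f ∈ (M.map (C : O →+* RR O)) ^ 2, ph T f = 0 := fun f hf =>
  Ideal.Quotient.eq_zero_iff_mem.2 (h (itg_mem (by rwa [Ideal.map_pow])))

omit [Algebra ℚ O] in
theorem cst_eq (y : M2 O) : cst y = CM y := rfl

theorem cst_mem_Tra {M : Ideal O} {n ν : E → M2 O} {c : E} {H : M2 O} (h : ν c = ⁅n c, H⁆)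
    (hM : InC M (ν c)) :
    cst H ∈ Tra (M.map (C : O →+* RR O)) (cst (n c)) (ph (TT M n ν)).toAddMonoidHom := by
  have e : cst (n c) * cst H - cst H * cst (n c) = cst (ν c) := by
    rw [h, Ring.lie_def, cst_eq, cst_eq, cst_eq, map_sub, map_mul, map_mul]
  refine ⟨by rw [mem_Cen, e]; exact (inI_cst M _).2 hM, fun y hy => ?_⟩
  rw [e]
  refine Ideal.Quotient.eq_zero_iff_mem.2 ?_
  rw [← trace_itgM, itgM_cst_mul]
  refine trace_mem_TT n ν c ?_
  rw [Ring.lie_def, ← itgM_cst_mul, ← itgM_mul_cst, ← itgM_sub]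
  exact itgM_mem hy

omit [Algebra ℚ O] in
theorem map_sup_C (b b' : Ideal O) :
    (b ⊔ b').map (C : O →+* RR O) = b.map (C : O →+* RR O) ⊔ b'.map C := Ideal.map_sup _ _ _

/-- constant units -/
def cU (g : (MM O)ˣ) : (MM O)ˣ := Units.map (CM (O := O)).toMonoidHom (at0U g)

theorem cst_at0_Ad (g : (MM O)ˣ) (y : M2 O) : cst (at0 (Ad g (cst y))) = Ad (cU g) (cst y) := by
  rw [Ad, at0_mul, at0_mul, at0_cst, cst_eq, map_mul, map_mul]
  rfl

theorem conj_conj {G : Type} [Group G] (k w h : G) :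
    k * (w * h * w⁻¹) * k⁻¹ = k * w * h * (k * w)⁻¹ := by group

end StB

namespace Setup
open StB Gen
variable (s : Setup) {O : Type} [CommRing O] [Algebra ℚ O] (m : Marked O Mk)
  {x : ∀ l : Lg, Option (s.L.C l.1) → M2 O}
  (hx : ∀ l c, s.L.cown l c = true → InC (m.ii (s.L.cmark l c)) (x l c))
  {A B : F1 O} (hp : s.Pair m.a A B)

namespace StC

theorem touch (c : s.cv.C) (side : Bool) : s.cv.Touch (s.shS c side) c := by
  cases side
  · exact Or.inl rfl
  · exact Or.inr rfl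

theorem par_iff (P : s.cv.S) (c : s.cv.C) : s.cv.par P = some c ↔ P = s.shS c (!s.cv.ins c) := by
  rw [s.cv.par_iff, shS]
  cases s.cv.ins c <;> rfl

theorem child {P : s.cv.S} {c : s.cv.C} (h : s.cv.Touch P c) (h' : s.cv.par P ≠ some c) :
    s.shS c (s.cv.ins c) = P := by
  rw [Ne, par_iff, shS] at h'
  rw [shS]
  rcases h with h | h <;> cases hi : s.cv.ins c <;> simp_all

omit [Algebra ℚ O] in
theorem Xv_own (A : F1 O) (c : s.cv.C) :
    s.Xv x A (s.col c, !s.cv.ins c) (some ⟨c, rfl⟩) = s.src x (s.shS c (!s.cv.ins c)) := by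
  rw [src, (par_iff s _ c).2 rfl, Xv, if_pos]
  · rfl
  · simp only [Letters.cown, L]
    cases s.cv.ins c <;> rfl

omit [Algebra ℚ O] in
theorem Xv_env (A : F1 O) (c : s.cv.C) :
    s.Xv x A (s.col c, s.cv.ins c) (some ⟨c, rfl⟩) = s.nv x A c := by
  rw [Xv, if_neg]
  · rfl
  · simp only [Letters.cown, L]
    cases s.cv.ins c <;> simp

omit [Algebra ℚ O] in
theorem nil : IsNilpotent (m.a.map (C : O →+* RR O)) := Fm.isNilpotent_map _ m.nil

omit [Algebra ℚ O] in
theorem sqz (g : Mk) : (m.ii g).map (C : O →+* RR O) * (m.ii g).map C = ⊥ := by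
  rw [← Ideal.map_mul, m.sq, Ideal.map_bot]

include hp in
theorem UU_mem {P : s.cv.S} {r r' : Gp} (h : s.cv.PE P r r') : s.UU A P r r' ∈ UG m.a :=
  step_mem m.nil hp.iA (s.FF_mem h.pv.1) (s.FF_mem h.pv.2)

include hp in
theorem hol_mem {P : s.cv.S} {c : s.cv.C} (h : s.cv.Touch P c) :
    holN (s.UU A P) (s.cv.vx c) (s.cv.per c) ∈ UG m.a :=
  ShA.holN_mem fun _ hk => UU_mem s m hp (s.cv.pe_vx h hk)

/-- the error ideal -/
abbrev TS (x : ∀ l : Lg, Option (s.L.C l.1) → M2 O) (A : F1 O) : Ideal O :=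
  TT (s.MR x A) (s.nv x A) (s.nu x A)

theorem ph_zero (x : ∀ l : Lg, Option (s.L.C l.1) → M2 O) (A : F1 O) :
    ∀ f ∈ ((s.MR x A).map (C : O →+* RR O)) ^ 2, ph (TS s x A) f = 0 := ph_sq (sq_le_TT _ _ _)

variable (hs : In2 (KR s.D.N) (s.MR x A) (curv A - s.JR x A))
include hx hp hs

theorem child_data (c : s.cv.C) (hP : s.cv.par (s.shS c (s.cv.ins c)) ≠ none) :
    ∃ k : (MM O)ˣ, s.eta x A (s.shS c (s.cv.ins c)) (s.cv.vx c 0) =
      Ad (k * s.whR A c (s.cv.ins c)) (cst (s.nv x A c)) ∧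
      k ∈ ShA.TraU (m.a.map C) ((s.MR x A).map C) (cst (s.nv x A c)) (ph (TS s x A)) ∧
      s.HR A c (s.cv.ins c) ∈
        ShA.TraU (m.a.map C) ((s.MR x A).map C) (cst (s.nv x A c)) (ph (TS s x A)) := by
  have hpv := ShA.pv_vx s.cv (touch s c (s.cv.ins c))
  have h1 := s.lam_shift m hx hp hs hP hpv
  have h2 := s.whR_shift m hx hp hs c (s.cv.ins c)
  have h3 := s.HR_shift m hx hp hs c (s.cv.ins c)
  have h4 := s.lam_mem m hp hpv
  have h5 := s.whR_mem m hp c (s.cv.ins c)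
  have h6 := s.src_mem m hx (s.shS c (s.cv.ins c))
  have hn : cst (s.nv x A c) = Ad (cU (s.lam A (s.shS c (s.cv.ins c)) (s.cv.vx c 0) *
      (s.whR A c (s.cv.ins c))⁻¹)) (cst (s.src x (s.shS c (s.cv.ins c)))) := cst_at0_Ad _ _
  have hi : InC ((m.ii (s.mkS (s.shS c (s.cv.ins c)))).map (C : O →+* RR O))
      (cst (s.nv x A c)) := by
    rw [hn]
    exact InC.Ad ((inI_cst _ _).2 h6) _
  rw [eta]
  generalize s.lam A (s.shS c (s.cv.ins c)) (s.cv.vx c 0) = lm at *
  generalize s.whR A c (s.cv.ins c) = wh at *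
  generalize Up A (s.FF (s.shS c (s.cv.ins c)) (s.cv.vx c 0)) = u at *
  have hcU : ∀ g : (MM O)ˣ, cst (at0 (g : MM O)) = (cU g : MM O) := fun _ => rfl
  have hmul : cU (lm * wh⁻¹) = cU lm * (cU wh)⁻¹ := by simp only [cU, at0U, map_mul, map_inv]
  have hU : ∀ {g : (MM O)ˣ} {b : Ideal O}, g ∈ UG b → cU g ∈ UG b := fun {g b} hg => by
    have h := (inI_cst b _).2 (InI.at0 hg)
    have e : (cU g : MM O) - 1 = cst (at0 ((g : MM O) - 1)) := by
      rw [← hcU]
      change Fm.CM (Fm.at0 _) - 1 = Fm.CM (Fm.at0 _)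
      rw [map_sub, map_sub, map_one, map_one]
    rwa [mem_UG, e]
  rw [hcU, ← Units.val_mul, inI_sub_iff] at h1 h2
  refine ⟨(cU (lm * wh⁻¹))⁻¹ * (lm * wh⁻¹), ?_, ⟨?_, ?_⟩, s.HR_mem m hp c _, ?_⟩
  · rw [hn, ← Ad_mul]
    congr 1
    group
  · have h7 : lm * wh⁻¹ ∈ UG m.a := mul_mem h4 (inv_mem h5)
    exact (UG m.a).mul_mem (inv_mem (hU h7)) h7
  · refine ShA.mem_Tra_of_Cg (sqz m _) (ph_zero s x A) hi ?_
    rw [← map_sup_C]
    have e : (cU (lm * wh⁻¹))⁻¹ * (lm * wh⁻¹) = (cU lm * (cU wh)⁻¹)⁻¹ * (lm * (cU lm * u)⁻¹) *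
        (cU lm * (cU wh)⁻¹)⁻¹⁻¹ * (wh * (cU wh * u)⁻¹)⁻¹ := by
      rw [hmul]
      group
    rw [e]
    exact (UG _).mul_mem ((UG_normal _).conj_mem _ h1 _) (inv_mem h2)
  · have h7 := (Tra _ _ _).add_mem (ShA.mem_Tra_of_MI (sqz m _) (ph_zero s x A) hi
      (by rw [← map_sup_C]; exact h3)) (cst_mem_Tra (M := s.MR x A) (n := s.nv x A)
        (ν := s.nu x A) (c := c) rfl fun i j => Ideal.subset_span ⟨c, i, j, rfl⟩)
    rwa [coe_at0U, sub_add_cancel] at h7

theorem curve_term (c : s.cv.C) (side : Bool) :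
    ph (TS s x A) (s.eta x A (s.shS c side) (s.cv.vx c 0) *
      lg (holN (s.UU A (s.shS c side)) (s.cv.vx c) (s.cv.per c) : (MM O)ˣ).1).trace =
    ph (TS s x A) (cst (s.Xv x A (s.col c, side) (some ⟨c, rfl⟩)) *
      lg (s.HR A c side : MM O)).trace := by
  have hh := hol_mem s m hp (touch s c side)
  by_cases h : side = s.cv.ins c
  · subst h
    rw [Xv_env]
    by_cases hP : s.cv.par (s.shS c (s.cv.ins c)) = none
    · have h0 : s.src x (s.shS c (s.cv.ins c)) = 0 := by rw [src, hP]; rfl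
      have h1 : ∀ g : (MM O)ˣ, Ad g (cst (0 : M2 O)) = 0 := fun g => by
        rw [cst_eq, map_zero, Ad, mul_zero, zero_mul]
      have h2 : s.nv x A c = 0 := by
        rw [nv, h0, h1]
        exact map_zero Fm.at0
      rw [eta, h0, h1, h2, cst_eq, map_zero, zero_mul, zero_mul]
    · obtain ⟨k, h1, h2, h3⟩ := child_data s m hx hp hs c hP
      rw [h1, ← ShA.trace_lg_conj (nil m) _ _ hh, ← ShA.lg_conj (nil m) h2 h3, HR, conj_conj]
  · obtain rfl : side = !s.cv.ins c := by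
      revert h
      cases side <;> cases s.cv.ins c <;> simp
    have hP := (par_iff s _ c).2 rfl
    have hw := (s.hwk _ _ (ShA.pv_vx s.cv (touch s c (!s.cv.ins c)))).2.base
    rw [s.hbase _ c hP] at hw
    rw [Xv_own, HR, ShA.trace_lg_conj (nil m) _ _ hh, eta, lam, hP, hw]
    simp only [holL, Option.elim, mul_one]

theorem sheet (P : s.cv.S) :
    ∑ f ∈ (sqs s.g.m).filter (fun f => s.cv.sh f = P),
      ph (TS s x A) (s.eta x A P f * lg (holL (s.UU A P) (bdF f) : (MM O)ˣ).1).trace =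
    ∑ c, ((if s.cv.shL c = P then 1 else 0) - (if s.cv.shR c = P then 1 else 0) : ℤ) •
      ph (TS s x A) (s.eta x A P (s.cv.vx c 0) *
        lg (holN (s.UU A P) (s.cv.vx c) (s.cv.per c) : (MM O)ˣ).1).trace := by
  rcases hP : s.cv.par P with _ | c0
  · have h0 : ∀ r, s.eta x A P r = 0 := fun r => by
      rw [eta, src, hP]
      change Ad _ (cst 0) = 0
      rw [cst_eq, map_zero, Ad, mul_zero, zero_mul]
    simp [h0]
  · have e : ∀ r, s.eta x A P r = Ad (holL (s.UU A P) (s.wk P r))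
        (Ad (s.whR A c0 (!s.cv.ins c0)) (cst (s.src x P))) := fun r => by
      rw [eta, lam, hP, ← Ad_mul]
      rfl
    have ht : s.cv.Touch P c0 := by
      rw [(par_iff s P c0).1 hP]
      exact touch s c0 _
    obtain ⟨hb, hwk⟩ := s.hwk P _ (ShA.pv_vx s.cv ht)
    simp only [e]
    refine ShA.stokes s.cv (nil m) (sqz m (s.mkS P)) _ (ph_zero s x A)
      (fun h => by rw [h, s.cv.par_root] at hP; cases hP) (s.UU A P) (fun _ _ => step_symm _ _ _)
      (fun _ _ h => UU_mem s m hp h) hb hwk (InC.Ad ((inI_cst _ _).2 (s.src_mem m hx P)) _)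
      (fun f h1 h2 => ?_) fun c h1 h2 => ?_
    · rw [← map_sup_C, ← h2]
      exact s.face_flat m hx hp hs h1
    · obtain rfl := child s h1 h2
      obtain ⟨k, h3, h4, h5⟩ := child_data s m hx hp hs c (by rw [hP]; simp)
      rw [← e, h3]
      refine ShA.mem_Tra_Ad ?_
      have h6 := (mul_mem (mul_mem h4 h5) (inv_mem h4)).2
      rwa [HR, conj_conj] at h6

end StC

include hx hp
/-- R5b -/
theorem sheet_stokes (hs : s.Sol x A B (s.MR x A)) : ∃ w : s.cv.C → M2 O,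
    (∀ c, InC (s.MR x A) ⁅s.nv x A c, w c⁆) ∧
    ∑ f ∈ sqs s.g.m, itg (Matrix.trace (cst (s.src x (s.cv.sh f)) *
      lg ((s.lam A (s.cv.sh f) f * holL (s.UU A (s.cv.sh f)) (bdF f) *
        (s.lam A (s.cv.sh f) f)⁻¹ : (MM O)ˣ) : MM O))) -
      ∑ c, ∑ side : Bool, Letters.sg (s.col c, side) • itg (Matrix.trace
        (cst (s.Xv x A (s.col c, side) (some ⟨c, rfl⟩)) * lg (s.HR A c side : MM O))) -
      ∑ c, Matrix.trace (s.nu x A c * w c) ∈ s.MR x A ^ 2 := by
  refine (?_ : _ ∈ StC.TS s x A)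
  rw [← Ideal.Quotient.eq, map_sum, map_sum, ← Finset.sum_fiberwise _ s.cv.sh]
  refine Eq.trans (Finset.sum_congr rfl fun P _ => Eq.trans (Finset.sum_congr rfl fun f hf => ?_)
    (StC.sheet s m hx hp hs.1 P)) ?_
  · obtain ⟨h1, rfl⟩ := Finset.mem_filter.1 hf
    have h2 : InSq s.g.m f := by
      simp only [sqs, Finset.mem_product, Finset.mem_Ico] at h1
      exact ⟨h1.1.1, h1.1.2, h1.2.1, h1.2.2⟩
    rw [ShA.trace_lg_conj (StC.nil m) _ _
      (ShA.holL_mem (fun _ _ h => StC.UU_mem s m hp h) (ShA.chain_bdF s.cv h2 rfl))]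
    rfl
  · rw [Finset.sum_comm]
    refine Finset.sum_congr rfl fun c _ => ?_
    have h1 := StC.curve_term s m hx hp hs.1 c false
    have h2 := StC.curve_term s m hx hp hs.1 c true
    simp only [sub_smul, Finset.sum_sub_distrib, ite_smul, one_smul, zero_smul, Finset.sum_ite_eq,
      Finset.mem_univ, if_true]
    rw [Fintype.sum_bool, map_add, Letters.sg, if_pos rfl, neg_smul, one_smul, map_neg, Letters.sg,
      if_neg Bool.false_ne_true, one_smul, ← ph_apply, ← ph_apply, ← h1, ← h2, neg_add_eq_sub]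
    rfl

end Setup
end Vale.Agent.P215Z.K
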